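import Mathlib

/-! # P076 / H381 : the finite / real-number core of LOW2 (row LOW of TS.SLAB) -/

set_option linter.all false

namespace Vale.Agent.P076.H381

/-- selection: few points have small `m` -/
theorem low2_sel {ι : Type*} (P : Finset ι) (e m : ι → ℝ) (Λ K T M mst : ℝ) (hΛ : 0 < Λ) (hK : 0 ≤ K) (hT : 0 < T)
    (hM : 0 ≤ M) (hm : ∀ i ∈ P, 0 ≤ m i) (hΛe : ∀ i ∈ P, Λ ≤ e i)
    (hS : ∀ P' ⊆ P, ∑ i ∈ P', e i ≤ K * ((Real.sqrt T) ^ 3)⁻¹ * Real.sqrt M * Real.sqrt (∑ i ∈ P', m i))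
    (hst : 4 * K ^ 2 * M * mst ≤ P.card * Λ ^ 2 * T ^ 3) :
    4 * ((P.filter fun i => m i < mst).card : ℝ) ≤ P.card := by
  classical
  set Q := P.filter fun i => m i < mst with hQ
  have h1 := hS Q (Finset.filter_subset _ _)
  have h2 : Q.card * Λ ≤ ∑ i ∈ Q, e i := by
    rw [← nsmul_eq_mul]
    exact Finset.card_nsmul_le_sum Q e Λ fun i hi => hΛe i (Finset.mem_filter.1 hi).1
  have h3 : ∑ i ∈ Q, m i ≤ Q.card * mst := by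
    rw [← nsmul_eq_mul]
    exact Finset.sum_le_card_nsmul Q m mst fun i hi => (Finset.mem_filter.1 hi).2.le
  have h30 : 0 ≤ ∑ i ∈ Q, m i := Finset.sum_nonneg fun i hi => hm i (Finset.mem_filter.1 hi).1
  have hT3 : 0 < (Real.sqrt T) ^ 3 := by positivity
  have hT6 : ((Real.sqrt T) ^ 3) ^ 2 = T ^ 3 := by
    rw [← pow_mul, mul_comm, pow_mul, Real.sq_sqrt hT.le]
  have hc : (0:ℝ) ≤ Q.card := Nat.cast_nonneg _
  have h4 : (Q.card * Λ) ^ 2 ≤ (K * ((Real.sqrt T) ^ 3)⁻¹ * Real.sqrt M * Real.sqrt (∑ i ∈ Q, m i)) ^ 2 := by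
    apply pow_le_pow_left₀ (by positivity)
    linarith
  have h5 : (K * ((Real.sqrt T) ^ 3)⁻¹ * Real.sqrt M * Real.sqrt (∑ i ∈ Q, m i)) ^ 2
      = K ^ 2 * M * (∑ i ∈ Q, m i) / T ^ 3 := by
    rw [mul_pow, mul_pow, mul_pow, Real.sq_sqrt hM, Real.sq_sqrt h30, inv_pow, hT6]
    field_simp
  rw [h5, le_div_iff₀ (by positivity)] at h4
  rcases Nat.eq_zero_or_pos Q.card with h0 | h0
  · rw [h0]; simp
  have hcp : (0:ℝ) < Q.card := by exact_mod_cast h0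
  -- Q.card^2 Λ^2 T^3 ≤ K^2 M Q.card mst
  have h6 : K ^ 2 * M * (∑ i ∈ Q, m i) ≤ K ^ 2 * M * (Q.card * mst) := by gcongr
  have h7 : (Q.card : ℝ) * (4 * Q.card * (Λ ^ 2 * T ^ 3)) ≤ Q.card * (P.card * (Λ ^ 2 * T ^ 3)) := by
    calc (Q.card : ℝ) * (4 * Q.card * (Λ ^ 2 * T ^ 3)) = 4 * ((Q.card * Λ) ^ 2 * T ^ 3) := by ring
      _ ≤ 4 * (K ^ 2 * M * (Q.card * mst)) := by linarith
      _ = Q.card * (4 * K ^ 2 * M * mst) := by ring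
      _ ≤ Q.card * (P.card * Λ ^ 2 * T ^ 3) := by gcongr
      _ = _ := by ring
  have h8 : 4 * (Q.card : ℝ) * (Λ ^ 2 * T ^ 3) ≤ P.card * (Λ ^ 2 * T ^ 3) := le_of_mul_le_mul_left h7 hcp
  exact le_of_mul_le_mul_right h8 (by positivity)

/-- **LOW2 core** -/
theorem low2_core (K K2 : ℝ) (hK : 0 ≤ K) (hK2 : 0 ≤ K2) : ∃ C : ℝ, 0 ≤ C ∧ ∀ {ι : Type} (P : Finset ι)
    (e₁ e₂ m₁ m₂ : ι → ℝ) (Λ T R M₁ M₂ : ℝ), 0 ≤ Λ → 0 < T → 0 < R → 0 ≤ M₁ → 0 ≤ M₂ →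
    (∀ i ∈ P, 0 ≤ m₁ i) → (∀ i ∈ P, 0 ≤ m₂ i) → (∀ i ∈ P, Λ ≤ e₁ i) → (∀ i ∈ P, Λ ≤ e₂ i) →
    (∀ P' ⊆ P, ∑ i ∈ P', e₁ i ≤ K * ((Real.sqrt T) ^ 3)⁻¹ * Real.sqrt M₁ * Real.sqrt (∑ i ∈ P', m₁ i)) →
    (∀ P' ⊆ P, ∑ i ∈ P', e₂ i ≤ K * ((Real.sqrt T) ^ 3)⁻¹ * Real.sqrt M₂ * Real.sqrt (∑ i ∈ P', m₂ i)) →
    ∑ i ∈ P, m₁ i * m₂ i ≤ K2 * (M₁ * M₂) →
    P.card * Λ ≤ C * (P.card * T ^ 2 / R ^ 2) ^ (1 / 4 : ℝ) * Real.sqrt R / T ^ 2 * (M₁ + M₂) := by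
  classical
  refine ⟨(32 * (K + 1) ^ 4 * K2) ^ (1 / 4 : ℝ), by positivity, ?_⟩
  intro ι P e₁ e₂ m₁ m₂ Λ T R M₁ M₂ hΛ hT hR hM₁ hM₂ hm₁ hm₂ he₁ he₂ hS₁ hS₂ hTR
  set C := (32 * (K + 1) ^ 4 * K2) ^ (1 / 4 : ℝ) with hC
  have hC0 : 0 ≤ C := by positivity
  set M := M₁ + M₂ with hMd
  have hM0 : 0 ≤ M := by positivity
  set N : ℝ := (P.card : ℝ) with hN
  have hN0 : 0 ≤ N := by positivity
  rcases hN0.lt_or_eq with hNp | hN'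
  swap
  · rw [← hN']; simp only [zero_mul]; positivity
  rcases hΛ.lt_or_eq with hΛp | hΛ'
  swap
  · rw [← hΛ']; simp only [mul_zero]; positivity
  -- the main inequality `N^3 Λ^4 T^6 ≤ 32 (K+1)^4 K2 M^4`
  have key : N ^ 3 * Λ ^ 4 * T ^ 6 ≤ 32 * (K + 1) ^ 4 * K2 * M ^ 4 := by
    rcases hM0.lt_or_eq with hMp | hM'
    swap
    · -- `M = 0`: impossible
      exfalso
      have hM1 : M₁ = 0 := by linarith
      have h1 := hS₁ P (le_refl _)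
      rw [hM1, Real.sqrt_zero, mul_zero, zero_mul] at h1
      have h2 : N * Λ ≤ ∑ i ∈ P, e₁ i := by
        rw [hN, ← nsmul_eq_mul]
        exact Finset.card_nsmul_le_sum P e₁ Λ he₁
      nlinarith [mul_pos hNp hΛp]
    set mst : ℝ := N * Λ ^ 2 * T ^ 3 / (4 * (K + 1) ^ 2 * M) with hmst
    have hmst0 : 0 < mst := by positivity
    have hK1 : (0:ℝ) < K + 1 := by linarith
    have hst : ∀ M' : ℝ, 0 ≤ M' → M' ≤ M → 4 * K ^ 2 * M' * mst ≤ P.card * Λ ^ 2 * T ^ 3 := fun M' h0 h1 => by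
      have e : 4 * (K + 1) ^ 2 * M * mst = P.card * Λ ^ 2 * T ^ 3 := by
        rw [hmst]; field_simp; exact hN
      rw [← e]
      gcongr
      linarith
    have s1 := low2_sel P e₁ m₁ Λ K T M₁ mst hΛp hK hT hM₁ hm₁ he₁ hS₁ (hst M₁ hM₁ (by linarith))
    have s2 := low2_sel P e₂ m₂ Λ K T M₂ mst hΛp hK hT hM₂ hm₂ he₂ hS₂ (hst M₂ hM₂ (by linarith))
    set Q := P.filter fun i => ¬ m₁ i < mst ∧ ¬ m₂ i < mst with hQ
    have hcard : (P.card : ℝ) ≤ Q.card + (P.filter fun i => m₁ i < mst).card + (P.filter fun i => m₂ i < mst).card := by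
      have : P ⊆ Q ∪ (P.filter fun i => m₁ i < mst) ∪ (P.filter fun i => m₂ i < mst) := fun i hi => by
        simp only [hQ, Finset.mem_union, Finset.mem_filter]
        tauto
      have h1 := Finset.card_le_card this
      have h2 := Finset.card_union_le (Q ∪ (P.filter fun i => m₁ i < mst)) (P.filter fun i => m₂ i < mst)
      have h3 := Finset.card_union_le Q (P.filter fun i => m₁ i < mst)
      exact_mod_cast h1.trans (h2.trans (by omega))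
    have hQc : N / 2 ≤ Q.card := by rw [hN]; linarith
    have h1 : Q.card * (mst * mst) ≤ ∑ i ∈ P, m₁ i * m₂ i := by
      calc _ ≤ ∑ i ∈ Q, m₁ i * m₂ i := by
            rw [← nsmul_eq_mul]
            refine Finset.card_nsmul_le_sum Q _ _ fun i hi => ?_
            have := (Finset.mem_filter.1 hi).2
            exact mul_le_mul (not_lt.1 this.1) (not_lt.1 this.2) hmst0.le (hmst0.le.trans (not_lt.1 this.1))
        _ ≤ _ := Finset.sum_le_sum_of_subset_of_nonneg (Finset.filter_subset _ _) fun i hi _ =>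
            mul_nonneg (hm₁ i hi) (hm₂ i hi)
    have h2 : M₁ * M₂ ≤ M ^ 2 := by rw [hMd]; nlinarith
    have h3 : N / 2 * (mst * mst) ≤ K2 * M ^ 2 := by
      calc _ ≤ Q.card * (mst * mst) := by gcongr
        _ ≤ K2 * (M₁ * M₂) := h1.trans hTR
        _ ≤ K2 * M ^ 2 := by gcongr
    have h4 : N / 2 * (mst * mst) = N ^ 3 * Λ ^ 4 * T ^ 6 / (32 * (K + 1) ^ 4 * M ^ 2) := by
      rw [hmst]; field_simp; ring
    rw [h4, div_le_iff₀ (by positivity)] at h3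
    calc _ ≤ K2 * M ^ 2 * (32 * (K + 1) ^ 4 * M ^ 2) := h3
      _ = _ := by ring
  -- conclusion
  have hX : 0 ≤ C * (N * T ^ 2 / R ^ 2) ^ (1 / 4 : ℝ) * Real.sqrt R / T ^ 2 * M := by positivity
  rw [← pow_le_pow_iff_left₀ (by positivity) hX (n := 4) (by norm_num)]
  have e1 : (C * (N * T ^ 2 / R ^ 2) ^ (1 / 4 : ℝ) * Real.sqrt R / T ^ 2 * M) ^ 4
      = C ^ 4 * ((N * T ^ 2 / R ^ 2) ^ (1 / 4 : ℝ)) ^ 4 * (Real.sqrt R) ^ 4 / (T ^ 2) ^ 4 * M ^ 4 := by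
    ring
  have e2 : C ^ 4 = 32 * (K + 1) ^ 4 * K2 := by
    rw [hC, ← Real.rpow_natCast, ← Real.rpow_mul (by positivity)]
    norm_num
  have e3 : ((N * T ^ 2 / R ^ 2) ^ (1 / 4 : ℝ)) ^ 4 = N * T ^ 2 / R ^ 2 := by
    rw [← Real.rpow_natCast, ← Real.rpow_mul (by positivity)]
    norm_num
  have e4 : (Real.sqrt R) ^ 4 = R ^ 2 := by
    rw [show (4:ℕ) = 2 * 2 by norm_num, pow_mul, Real.sq_sqrt hR.le]
  rw [e1, e2, e3, e4]
  have e5 : 32 * (K + 1) ^ 4 * K2 * (N * T ^ 2 / R ^ 2) * R ^ 2 / (T ^ 2) ^ 4 * M ^ 4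
      = N / T ^ 6 * (32 * (K + 1) ^ 4 * K2 * M ^ 4) := by
    field_simp
  rw [e5]
  calc (N * Λ) ^ 4 = N / T ^ 6 * (N ^ 3 * Λ ^ 4 * T ^ 6) := by field_simp
    _ ≤ _ := by gcongr

end Vale.Agent.P076.H381
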