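import Vale.Agent.P076.H381.TT

/-! # P076 / H381 : column form of the discrete `TT*` inequality (row LOW.TT of TS.SLAB) -/

set_option linter.all false

open MeasureTheory Complex

namespace Vale.Agent.P076.H381

open Vale.Agent.P076.X

theorem sum_rsqrt (n : ℕ) : ∑ m ∈ Finset.range n, (Real.sqrt (m + 1))⁻¹ ≤ 2 * Real.sqrt n := by
  induction n with
  | zero => simp
  | succ n ih =>
    rw [Finset.sum_range_succ]
    have h1 : 0 < Real.sqrt (n + 1) := by positivity
    have h2 : Real.sqrt (n + 1) ^ 2 = n + 1 := Real.sq_sqrt (by positivity)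
    have h3 : Real.sqrt n ^ 2 = n := Real.sq_sqrt (by positivity)
    have h4 : 0 ≤ Real.sqrt n := Real.sqrt_nonneg _
    have h5 : (Real.sqrt (n + 1))⁻¹ ≤ 2 * Real.sqrt (n + 1) - 2 * Real.sqrt n := by
      rw [inv_le_iff_one_le_mul₀ h1]
      nlinarith [sq_nonneg (Real.sqrt (n + 1) - Real.sqrt n)]
    push_cast
    linarith

theorem col_sum {ι : Type*} (s : Finset ι) (om : ι → ℝ) (k : ι → ℤ) (hom : ∀ i ∈ s, 0 ≤ om i) {D : ℝ}
    (hD : 0 ≤ D) (hcol : ∀ q : ℤ, ∑ i ∈ s.filter (fun i => k i = q), om i ≤ D) (k0 : ℤ) :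
    ∑ j ∈ s, om j * (Real.sqrt (((k j - k0).natAbs : ℝ) + 1))⁻¹ ≤ 7 * Real.sqrt (D * ∑ i ∈ s, om i) := by
  classical
  set N : ℝ := ∑ i ∈ s, om i with hN
  have hN0 : 0 ≤ N := Finset.sum_nonneg hom
  have hle1 : ∀ n : ℕ, (Real.sqrt ((n : ℝ) + 1))⁻¹ ≤ 1 := fun n => by
    apply inv_le_one_of_one_le₀
    rw [Real.one_le_sqrt]
    have : (0:ℝ) ≤ n := Nat.cast_nonneg n
    linarith
  have htriv : ∑ j ∈ s, om j * (Real.sqrt (((k j - k0).natAbs : ℝ) + 1))⁻¹ ≤ N :=
    Finset.sum_le_sum fun j hj => by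
      have := hom j hj
      calc _ ≤ om j * 1 := mul_le_mul_of_nonneg_left (hle1 _) this
        _ = om j := mul_one _
  rcases hD.lt_or_eq with hD' | hD'
  swap
  · -- `D = 0`
    have h0 : ∀ i ∈ s, om i = 0 := fun i hi => by
      have h1 := hcol (k i)
      rw [← hD'] at h1
      have h2 : om i ≤ ∑ j ∈ s.filter (fun j => k j = k i), om j :=
        Finset.single_le_sum (f := om) (fun j hj => hom j (Finset.mem_filter.1 hj).1)
          (Finset.mem_filter.2 ⟨hi, rfl⟩)
      linarith [hom i hi]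
    have : N = 0 := by rw [hN]; exact Finset.sum_eq_zero h0
    rw [this] at htriv
    calc _ ≤ (0:ℝ) := htriv
      _ ≤ _ := by positivity
  -- `D > 0`
  set K : ℕ := ⌊N / D⌋₊ with hK
  have hq : 0 ≤ N / D := by positivity
  have hK1 : N / D < K + 1 := Nat.lt_floor_add_one _
  have hK2 : (K : ℝ) ≤ N / D := Nat.floor_le hq
  have hDN : 0 ≤ D * N := by positivity
  by_cases hcase : N < D
  · have : N ≤ Real.sqrt (D * N) := by
      apply Real.le_sqrt_of_sq_le
      nlinarith
    have h0 : 0 ≤ Real.sqrt (D * N) := Real.sqrt_nonneg _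
    linarith
  rw [not_lt] at hcase
  have hq1 : 1 ≤ N / D := by rw [le_div_iff₀ hD']; linarith
  -- the far part
  have hfar : ∑ j ∈ s.filter (fun j => ¬ (k j - k0).natAbs < K + 1),
      om j * (Real.sqrt (((k j - k0).natAbs : ℝ) + 1))⁻¹ ≤ Real.sqrt (D * N) := by
    have h1 : ∀ j ∈ s.filter (fun j => ¬ (k j - k0).natAbs < K + 1),
        om j * (Real.sqrt (((k j - k0).natAbs : ℝ) + 1))⁻¹ ≤ om j * (Real.sqrt (N / D))⁻¹ := fun j hj => by
      rw [Finset.mem_filter] at hj
      apply mul_le_mul_of_nonneg_left _ (hom j hj.1)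
      apply inv_anti₀ (Real.sqrt_pos.2 (by linarith))
      apply Real.sqrt_le_sqrt
      have : ((K + 1 : ℕ) : ℝ) ≤ ((k j - k0).natAbs : ℝ) := by exact_mod_cast not_lt.1 hj.2
      push_cast at this
      linarith
    calc _ ≤ ∑ j ∈ s.filter (fun j => ¬ (k j - k0).natAbs < K + 1), om j * (Real.sqrt (N / D))⁻¹ :=
          Finset.sum_le_sum h1
      _ = (∑ j ∈ s.filter (fun j => ¬ (k j - k0).natAbs < K + 1), om j) * (Real.sqrt (N / D))⁻¹ := by
          rw [Finset.sum_mul]
      _ ≤ N * (Real.sqrt (N / D))⁻¹ := by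
          gcongr
          exact Finset.sum_le_sum_of_subset_of_nonneg (Finset.filter_subset _ _) fun i hi _ => hom i hi
      _ = Real.sqrt (D * N) := by
          have hs : Real.sqrt (N / D) ≠ 0 := (Real.sqrt_pos.2 (by linarith)).ne'
          rw [← div_eq_mul_inv, div_eq_iff hs, ← Real.sqrt_mul hDN]
          rw [show D * N * (N / D) = N ^ 2 by field_simp, Real.sqrt_sq hN0]
  -- the near part
  have hnear : ∑ j ∈ s.filter (fun j => (k j - k0).natAbs < K + 1),
      om j * (Real.sqrt (((k j - k0).natAbs : ℝ) + 1))⁻¹ ≤ 4 * D * Real.sqrt (K + 1) := by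
    rw [← Finset.sum_fiberwise_of_maps_to (s := s.filter (fun j => (k j - k0).natAbs < K + 1))
      (t := Finset.range (K + 1)) (g := fun j => (k j - k0).natAbs)
      (fun j hj => by rw [Finset.mem_range]; exact (Finset.mem_filter.1 hj).2)]
    calc _ ≤ ∑ m ∈ Finset.range (K + 1), 2 * D * (Real.sqrt (m + 1))⁻¹ := by
          refine Finset.sum_le_sum fun m _ => ?_
          have e1 : ∑ j ∈ (s.filter (fun j => (k j - k0).natAbs < K + 1)).filter
              (fun j => (k j - k0).natAbs = m), om j * (Real.sqrt (((k j - k0).natAbs : ℝ) + 1))⁻¹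
              = (∑ j ∈ (s.filter (fun j => (k j - k0).natAbs < K + 1)).filter
              (fun j => (k j - k0).natAbs = m), om j) * (Real.sqrt ((m : ℝ) + 1))⁻¹ := by
            rw [Finset.sum_mul]
            refine Finset.sum_congr rfl fun j hj => ?_
            rw [(Finset.mem_filter.1 hj).2]
          rw [e1]
          gcongr
          calc _ ≤ ∑ j ∈ s.filter (fun j => k j = k0 + m) ∪ s.filter (fun j => k j = k0 - m), om j := by
                apply Finset.sum_le_sum_of_subset_of_nonneg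
                · intro j hj
                  rw [Finset.mem_filter, Finset.mem_filter] at hj
                  rw [Finset.mem_union, Finset.mem_filter, Finset.mem_filter]
                  rcases Int.natAbs_eq (k j - k0) with h | h
                  · left; exact ⟨hj.1.1, by rw [hj.2] at h; omega⟩
                  · right; exact ⟨hj.1.1, by rw [hj.2] at h; omega⟩
                · intro j hj _
                  rw [Finset.mem_union, Finset.mem_filter, Finset.mem_filter] at hj
                  rcases hj with h | h <;> exact hom j h.1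
            _ ≤ ∑ j ∈ s.filter (fun j => k j = k0 + m), om j + ∑ j ∈ s.filter (fun j => k j = k0 - m), om j := by
                rw [← Finset.sum_union_inter]
                have : 0 ≤ ∑ j ∈ s.filter (fun j => k j = k0 + m) ∩ s.filter (fun j => k j = k0 - m), om j :=
                  Finset.sum_nonneg fun j hj => by
                    rw [Finset.mem_inter, Finset.mem_filter] at hj
                    exact hom j hj.1.1
                linarith
            _ ≤ 2 * D := by linarith [hcol (k0 + m), hcol (k0 - m)]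
      _ = 2 * D * ∑ m ∈ Finset.range (K + 1), (Real.sqrt (m + 1))⁻¹ := by rw [Finset.mul_sum]
      _ ≤ 2 * D * (2 * Real.sqrt ((K + 1 : ℕ) : ℝ)) := by
          gcongr
          exact sum_rsqrt (K + 1)
      _ = 4 * D * Real.sqrt (K + 1) := by push_cast; ring
  have hnear' : 4 * D * Real.sqrt (K + 1) ≤ 6 * Real.sqrt (D * N) := by
    have h1 : Real.sqrt (K + 1) ≤ Real.sqrt (2 * (N / D)) := Real.sqrt_le_sqrt (by linarith)
    have h2 : D * Real.sqrt (2 * (N / D)) = Real.sqrt (2 * (D * N)) := by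
      rw [show (2 * (D * N) : ℝ) = D ^ 2 * (2 * (N / D)) by field_simp, Real.sqrt_mul (sq_nonneg D),
        Real.sqrt_sq hD]
    have h3 : Real.sqrt (2 * (D * N)) ≤ 3 / 2 * Real.sqrt (D * N) := by
      rw [Real.sqrt_mul (by norm_num)]
      gcongr
      rw [Real.sqrt_le_left (by norm_num)]
      norm_num
    nlinarith [mul_le_mul_of_nonneg_left h1 hD]
  rw [← Finset.sum_filter_add_sum_filter_not s (fun j => (k j - k0).natAbs < K + 1)]
  linarith

/-- the regularised kernel between two `T`-columns -/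
theorem kap_le {w T : ℝ} (hw : 0 < w) (hT : 0 < T) (hTw : T * w ^ 2 ≤ 1) (a b : ℝ) :
    kap w (a - b) ≤ 2 * (Real.sqrt T)⁻¹ * (Real.sqrt (((⌊b / T⌋ - ⌊a / T⌋).natAbs : ℝ) + 1))⁻¹ := by
  set m : ℕ := (⌊b / T⌋ - ⌊a / T⌋).natAbs with hm
  have h1 : T ≤ (1 / w) ^ 2 := by
    rw [div_pow, one_pow, le_div_iff₀ (by positivity)]
    exact hTw
  have h2 : (m : ℝ) * T ≤ |a - b| + T := by
    have e : (m : ℝ) = |((⌊b / T⌋ : ℝ) - ⌊a / T⌋)| := by
      rw [hm, Nat.cast_natAbs]; push_cast; rfl
    have f1 := Int.floor_le (b / T)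
    have f2 := Int.lt_floor_add_one (b / T)
    have f3 := Int.floor_le (a / T)
    have f4 := Int.lt_floor_add_one (a / T)
    have f5 : (m : ℝ) ≤ |b / T - a / T| + 1 := by
      rw [e]
      rcases abs_cases ((⌊b / T⌋ : ℝ) - ⌊a / T⌋) with h | h <;>
      rcases abs_cases (b / T - a / T) with h' | h' <;> linarith [h.1, h'.1]
    have f6 : |b / T - a / T| = |a - b| / T := by
      rw [← sub_div, abs_div, abs_of_pos hT, abs_sub_comm]
    rw [f6] at f5
    calc (m : ℝ) * T ≤ (|a - b| / T + 1) * T := by gcongr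
      _ = _ := by field_simp
  have h3 : T / 4 * ((m : ℝ) + 1) ≤ (1 / w) ^ 2 + |a - b| := by
    have := abs_nonneg (a - b)
    nlinarith [mul_nonneg (Nat.cast_nonneg (α := ℝ) m) hT.le]
  unfold kap
  calc _ ≤ (Real.sqrt (T / 4 * ((m : ℝ) + 1)))⁻¹ := by
        apply inv_anti₀ (by positivity) (Real.sqrt_le_sqrt h3)
    _ = _ := by
        rw [Real.sqrt_mul (by positivity), show T / 4 = T * (1 / 2) ^ 2 by ring, Real.sqrt_mul hT.le,
          Real.sqrt_sq (by norm_num)]
        field_simp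

/-- **TT2**: column form of the discrete `TT*` inequality -/
theorem tt2 : ∃ K : ℝ, 0 < K ∧ ∀ {ι : Type} (s : Finset ι) (om y t : ι → ℝ) (w T D : ℝ) (c : ℝ → ℂ), Good c →
    (∀ z, c z ≠ 0 → |z| ≤ w) → 0 < w → 0 < T → T * w ^ 2 ≤ 1 → (∀ i ∈ s, 0 ≤ om i) → 0 ≤ D →
    (∀ k : ℤ, ∑ i ∈ s.filter (fun i => ⌊t i / T⌋ = k), om i ≤ D) →
    ∑ i ∈ s, om i * ‖sol c (y i) (t i)‖ ^ 2 ≤ K * (Real.sqrt T)⁻¹ * Real.sqrt (D * ∑ i ∈ s, om i) * ms c := by
  refine ⟨Real.exp (2 * Real.pi) * 14, by positivity, ?_⟩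
  intro ι s om y t w T D c hc hs hw hT hTw hom hD hcol
  set N : ℝ := ∑ i ∈ s, om i with hN
  have hN0 : 0 ≤ N := Finset.sum_nonneg hom
  set S : ℝ := 14 * (Real.sqrt T)⁻¹ * Real.sqrt (D * N) with hSdef
  have hbd : ∀ i ∈ s, ∑ j ∈ s, om j * kap w (t i - t j) ≤ S := fun i hi => by
    calc _ ≤ ∑ j ∈ s, 2 * (Real.sqrt T)⁻¹ *
            (om j * (Real.sqrt (((⌊t j / T⌋ - ⌊t i / T⌋).natAbs : ℝ) + 1))⁻¹) := by
          refine Finset.sum_le_sum fun j hj => ?_
          have h1 := hom j hj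
          have h2 := mul_le_mul_of_nonneg_left (kap_le hw hT hTw (t i) (t j)) h1
          linarith
      _ = 2 * (Real.sqrt T)⁻¹ * ∑ j ∈ s, om j * (Real.sqrt (((⌊t j / T⌋ - ⌊t i / T⌋).natAbs : ℝ) + 1))⁻¹ := by
          rw [Finset.mul_sum]
      _ ≤ 2 * (Real.sqrt T)⁻¹ * (7 * Real.sqrt (D * N)) := by
          gcongr
          exact col_sum s om (fun j => ⌊t j / T⌋) hom hD hcol _
      _ = S := by rw [hSdef]; ring
  have hms : 0 ≤ ms c := Good.ms_nonneg c
  rcases (by positivity : 0 ≤ S).lt_or_eq with hS | hS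
  · have := tt1 hw hc hs s om y t hom hS hbd
    calc _ ≤ Real.exp (2 * Real.pi) * S * ms c := this
      _ = _ := by rw [hSdef]; ring
  · -- `S = 0`: all weights vanish
    have hN' : N = 0 := by
      have hT' : 0 < (Real.sqrt T)⁻¹ := by positivity
      have h1 : Real.sqrt (D * N) = 0 := by
        have : 14 * (Real.sqrt T)⁻¹ ≠ 0 := by positivity
        exact (mul_eq_zero.1 hS.symm).resolve_left this
      have h2 : D * N = 0 := (Real.sqrt_eq_zero (by positivity)).1 h1
      rcases mul_eq_zero.1 h2 with h | h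
      · rw [hN]
        refine Finset.sum_eq_zero fun i hi => ?_
        have h3 := hcol ⌊t i / T⌋
        rw [h] at h3
        have h4 : om i ≤ ∑ j ∈ s.filter (fun j => ⌊t j / T⌋ = ⌊t i / T⌋), om j :=
          Finset.single_le_sum (f := om) (fun j hj => hom j (Finset.mem_filter.1 hj).1)
            (Finset.mem_filter.2 ⟨hi, rfl⟩)
        linarith [hom i hi]
      · exact h
    have h0 : ∀ i ∈ s, om i = 0 := (Finset.sum_eq_zero_iff_of_nonneg hom).1 hN'
    have : ∑ i ∈ s, om i * ‖sol c (y i) (t i)‖ ^ 2 = 0 :=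
      Finset.sum_eq_zero fun i hi => by rw [h0 i hi, zero_mul]
    rw [this]
    positivity

end Vale.Agent.P076.H381
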