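import Vale.Agent.P076.X.Basic

/-! # P076 / H381 : the discrete `TT*` inequality for scalar solutions in one variable (row LOW.TT of TS.SLAB) -/

set_option linter.all false

open MeasureTheory Complex

namespace Vale.Agent.P076.H381

open Vale.Agent.P076.X

/-- the size of the regularised kernel -/
noncomputable def kap (w t : ℝ) : ℝ := (Real.sqrt ((1 / w) ^ 2 + |t|))⁻¹

theorem kap_nonneg (w t : ℝ) : 0 ≤ kap w t := by unfold kap; positivity

theorem kap_neg (w t : ℝ) : kap w (-t) = kap w t := by unfold kap; rw [abs_neg]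

/-- the Gaussian regularised waves -/
noncomputable def ph (w y t ξ : ℝ) : ℂ := (Real.exp (-(Real.pi / w ^ 2 * ξ ^ 2)) : ℂ) * ex (y * ξ - t * ξ ^ 2)

theorem norm_ph (w y t ξ : ℝ) : ‖ph w y t ξ‖ = Real.exp (-(Real.pi / w ^ 2 * ξ ^ 2)) := by
  unfold ph
  rw [norm_mul, norm_ex, mul_one, Complex.norm_real, Real.norm_of_nonneg (Real.exp_pos _).le]

theorem continuous_ph (w y t : ℝ) : Continuous (ph w y t) := by
  unfold ph
  have := continuous_ex
  fun_prop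

theorem ph_mul_conj (w y t y' t' ξ : ℝ) : ph w y t ξ * (starRingEnd ℂ) (ph w y' t' ξ)
    = cexp (-(2 * Real.pi * ((1 / w) ^ 2 + (t - t') * I)) * ξ ^ 2 + (2 * Real.pi * (y - y') * I) * ξ + 0) := by
  unfold ph
  rw [map_mul, Complex.conj_ofReal, conj_ex]
  unfold ex
  rw [Complex.ofReal_exp, ← Complex.exp_add, ← Complex.exp_add, ← Complex.exp_add]
  congr 1
  push_cast
  ring

theorem integrable_ph_mul {w : ℝ} (hw : 0 < w) (y t y' t' : ℝ) :
    Integrable (fun ξ => ph w y t ξ * (starRingEnd ℂ) (ph w y' t' ξ)) := by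
  have h := (integrable_exp_neg_mul_sq (b := 2 * (Real.pi / w ^ 2)) (by positivity))
  refine h.mono' ((continuous_ph w y t).mul (Complex.continuous_conj.comp (continuous_ph w y' t'))).aestronglyMeasurable
    (Filter.Eventually.of_forall fun ξ => ?_)
  rw [norm_mul, RCLike.norm_conj, norm_ph, norm_ph, ← Real.exp_add]
  apply le_of_eq
  congr 1
  ring

theorem norm_int_ph_le {w : ℝ} (hw : 0 < w) (y t y' t' : ℝ) :
    ‖∫ ξ, ph w y t ξ * (starRingEnd ℂ) (ph w y' t' ξ)‖ ≤ kap w (t - t') := by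
  simp_rw [ph_mul_conj]
  have hre : ((2 * Real.pi * ((1 / w : ℝ) ^ 2 + (t - t' : ℝ) * I) : ℂ)).re = 2 * Real.pi * (1 / w) ^ 2 := by
    have : ((2 * Real.pi * ((1 / w : ℝ) ^ 2 + (t - t' : ℝ) * I) : ℂ)) =
      ((2 * Real.pi * (1 / w) ^ 2 : ℝ) : ℂ) + ((2 * Real.pi * (t - t') : ℝ) : ℂ) * I := by push_cast; ring
    rw [this, Complex.add_re, Complex.ofReal_re, Complex.re_ofReal_mul, Complex.I_re, mul_zero, add_zero]
  have hpos : 0 < (2 * Real.pi * (1 / w) ^ 2 : ℝ) := by positivity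
  push_cast at hre
  rw [integral_cexp_quadratic (by rw [Complex.neg_re, hre]; linarith)]
  set z : ℂ := 2 * Real.pi * ((1 / w) ^ 2 + (t - t') * I) with hz
  have hz0 : z ≠ 0 := fun h => by rw [h, Complex.zero_re] at hre; linarith
  rw [norm_mul]
  have h1 : ‖cexp (0 - (2 * Real.pi * (y - y') * I) ^ 2 / (4 * -z))‖ ≤ 1 := by
    rw [Complex.norm_exp, Real.exp_le_one_iff]
    have : (0 - (2 * Real.pi * (y - y') * I) ^ 2 / (4 * -z) : ℂ)
        = -(((Real.pi * (y - y')) ^ 2 : ℝ) : ℂ) * z⁻¹ := by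
      push_cast
      field_simp
      rw [Complex.I_sq]
      ring
    rw [this, neg_mul, Complex.neg_re, Complex.re_ofReal_mul, Complex.inv_re, hre]
    have : 0 ≤ (Real.pi * (y - y')) ^ 2 * (2 * Real.pi * (1 / w) ^ 2 / Complex.normSq z) := by
      have := Complex.normSq_nonneg z
      positivity
    linarith
  have h2 : ‖(Real.pi / - -z : ℂ) ^ (1 / 2 : ℂ)‖ ≤ kap w (t - t') := by
    rw [neg_neg]
    have hne : (Real.pi / z : ℂ) ≠ 0 := div_ne_zero (by exact_mod_cast Real.pi_ne_zero) hz0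
    rw [Complex.norm_cpow_of_ne_zero hne]
    have e1 : ((1 / 2 : ℂ)).re = 1 / 2 := by norm_num
    have e2 : ((1 / 2 : ℂ)).im = 0 := by norm_num
    rw [e1, e2, mul_zero, Real.exp_zero, div_one, norm_div, Complex.norm_real,
      Real.norm_of_nonneg Real.pi_pos.le, ← Real.sqrt_eq_rpow]
    unfold kap
    rw [← Real.sqrt_inv]
    apply Real.sqrt_le_sqrt
    have hn : Real.pi * ((1 / w) ^ 2 + |t - t'|) ≤ ‖z‖ := by
      have hzim : z.im = 2 * Real.pi * (t - t') := by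
        have : z = ((2 * Real.pi * (1 / w) ^ 2 : ℝ) : ℂ) + ((2 * Real.pi * (t - t') : ℝ) : ℂ) * I := by
          rw [hz]; push_cast; ring
        rw [this, Complex.add_im, Complex.ofReal_im, Complex.im_ofReal_mul, Complex.I_im, mul_one, zero_add]
      have a1 : |z.re| ≤ ‖z‖ := Complex.abs_re_le_norm z
      have a2 : |z.im| ≤ ‖z‖ := Complex.abs_im_le_norm z
      rw [hre, abs_of_pos hpos] at a1
      rw [hzim, abs_mul, abs_of_pos (by positivity : (0:ℝ) < 2 * Real.pi)] at a2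
      nlinarith
    have hq : 0 < (1 / w) ^ 2 + |t - t'| := by positivity
    rw [div_le_iff₀ (by linarith [mul_pos Real.pi_pos hq]), inv_mul_eq_div, le_div_iff₀ hq]
    exact hn
  calc _ ≤ kap w (t - t') * 1 := mul_le_mul h2 h1 (norm_nonneg _) (kap_nonneg _ _)
    _ = _ := mul_one _

/-- the profile without the Gaussian factor -/
noncomputable def unG (w : ℝ) (C : ℝ → ℂ) (ξ : ℝ) : ℂ := C ξ * (Real.exp (Real.pi / w ^ 2 * ξ ^ 2) : ℂ)

theorem unG_mul_ph (w y t : ℝ) (C : ℝ → ℂ) (ξ : ℝ) : unG w C ξ * ph w y t ξ = C ξ * ex (y * ξ - t * ξ ^ 2) := by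
  unfold unG ph
  have : (Real.exp (Real.pi / w ^ 2 * ξ ^ 2) : ℂ) * (Real.exp (-(Real.pi / w ^ 2 * ξ ^ 2)) : ℂ) = 1 := by
    rw [← Complex.ofReal_mul, ← Real.exp_add]; simp
  linear_combination (C ξ * ex (y * ξ - t * ξ ^ 2)) * this

theorem norm_unG_le {w : ℝ} (hw : 0 < w) {C : ℝ → ℂ} (hs : ∀ ξ, C ξ ≠ 0 → |ξ| ≤ w) (ξ : ℝ) :
    ‖unG w C ξ‖ ≤ Real.exp Real.pi * ‖C ξ‖ := by
  unfold unG
  rw [norm_mul, Complex.norm_real, Real.norm_of_nonneg (Real.exp_pos _).le, mul_comm]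
  by_cases h : C ξ = 0
  · rw [h]; simp
  · have h1 : ξ ^ 2 ≤ w ^ 2 := sq_le_sq' (by linarith [neg_le_of_abs_le (hs ξ h)]) (le_of_abs_le (hs ξ h))
    gcongr
    rw [div_mul_eq_mul_div, div_le_iff₀ (by positivity)]
    gcongr

theorem unG_int_sq {w : ℝ} (hw : 0 < w) {C : ℝ → ℂ} (hC : Good C) (hs : ∀ ξ, C ξ ≠ 0 → |ξ| ≤ w) :
    Integrable (fun ξ => ‖unG w C ξ‖ ^ 2) ∧ ∫ ξ, ‖unG w C ξ‖ ^ 2 ≤ Real.exp (2 * Real.pi) * ms C := by
  have hb : ∀ ξ, ‖unG w C ξ‖ ^ 2 ≤ Real.exp (2 * Real.pi) * ‖C ξ‖ ^ 2 := fun ξ => by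
    calc _ ≤ (Real.exp Real.pi * ‖C ξ‖) ^ 2 := by
          have := norm_unG_le hw hs ξ
          gcongr
      _ = _ := by rw [mul_pow, ← Real.exp_nat_mul]; norm_num
  have hm : AEStronglyMeasurable (fun ξ => unG w C ξ) := by
    unfold unG
    exact hC.1.aestronglyMeasurable.mul
      (Complex.continuous_ofReal.comp (by fun_prop)).aestronglyMeasurable
  have hi : Integrable (fun ξ => ‖unG w C ξ‖ ^ 2) :=
    (hC.int_sq.const_mul (Real.exp (2 * Real.pi))).mono' ((hm.norm).pow 2)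
      (Filter.Eventually.of_forall fun ξ => by
        rw [Real.norm_of_nonneg (by positivity)]; exact hb ξ)
  refine ⟨hi, ?_⟩
  unfold ms
  rw [← integral_const_mul]
  exact integral_mono hi (hC.int_sq.const_mul _) hb

/-- **TT1**: the discrete `TT*` inequality -/
theorem tt1 {w : ℝ} (hw : 0 < w) {C : ℝ → ℂ} (hC : Good C) (hs : ∀ ξ, C ξ ≠ 0 → |ξ| ≤ w) {ι : Type*}
    (s : Finset ι) (om y t : ι → ℝ) (hom : ∀ i ∈ s, 0 ≤ om i) {S : ℝ} (hS0 : 0 < S)
    (hS : ∀ i ∈ s, ∑ j ∈ s, om j * kap w (t i - t j) ≤ S) :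
    ∑ i ∈ s, om i * ‖sol C (y i) (t i)‖ ^ 2 ≤ Real.exp (2 * Real.pi) * S * ms C := by
  set v : ι → ℂ := fun i => sol C (y i) (t i) with hv
  set F : ℝ → ℂ := fun ξ => ∑ i ∈ s, (om i : ℂ) * (starRingEnd ℂ) (v i) * ph w (y i) (t i) ξ with hF
  set A : ℝ := ∑ i ∈ s, om i * ‖v i‖ ^ 2 with hA
  obtain ⟨hG2, hG2'⟩ := unG_int_sq hw hC hs
  -- the square of F
  have hFF : ∀ ξ, ((‖F ξ‖ ^ 2 : ℝ) : ℂ) = ∑ i ∈ s, ∑ j ∈ s, ((om i : ℂ) * (starRingEnd ℂ) (v i) *
      ((om j : ℂ) * v j)) * (ph w (y i) (t i) ξ * (starRingEnd ℂ) (ph w (y j) (t j) ξ)) := fun ξ => by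
    have : ((‖F ξ‖ ^ 2 : ℝ) : ℂ) = F ξ * (starRingEnd ℂ) (F ξ) := by
      rw [Complex.mul_conj, Complex.normSq_eq_norm_sq]
    rw [this, hF, map_sum, Finset.sum_mul_sum]
    refine Finset.sum_congr rfl fun i _ => Finset.sum_congr rfl fun j _ => ?_
    rw [map_mul, map_mul, Complex.conj_ofReal, Complex.conj_conj]
    ring
  have hint : ∀ i ∈ s, ∀ j ∈ s, Integrable (fun ξ => ((om i : ℂ) * (starRingEnd ℂ) (v i) *
      ((om j : ℂ) * v j)) * (ph w (y i) (t i) ξ * (starRingEnd ℂ) (ph w (y j) (t j) ξ))) :=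
    fun i _ j _ => (integrable_ph_mul hw _ _ _ _).const_mul _
  have hFFi : Integrable (fun ξ => ((‖F ξ‖ ^ 2 : ℝ) : ℂ)) := by
    simp_rw [hFF]
    exact integrable_finset_sum _ fun i hi => integrable_finset_sum _ fun j hj => hint i hi j hj
  have hFi : Integrable (fun ξ => ‖F ξ‖ ^ 2) := by
    have := hFFi.re
    simpa only [RCLike.re_eq_complex_re, Complex.ofReal_re] using this
  have hF2 : ∫ ξ, ‖F ξ‖ ^ 2 ≤ S * A := by
    have e : ((∫ ξ, ‖F ξ‖ ^ 2 : ℝ) : ℂ) = ∑ i ∈ s, ∑ j ∈ s, ((om i : ℂ) * (starRingEnd ℂ) (v i) *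
      ((om j : ℂ) * v j)) * ∫ ξ, (ph w (y i) (t i) ξ * (starRingEnd ℂ) (ph w (y j) (t j) ξ)) := by
      rw [← integral_complex_ofReal]
      simp_rw [hFF]
      rw [integral_finset_sum _ fun i hi => integrable_finset_sum _ fun j hj => hint i hi j hj]
      refine Finset.sum_congr rfl fun i hi => ?_
      rw [integral_finset_sum _ fun j hj => hint i hi j hj]
      refine Finset.sum_congr rfl fun j hj => ?_
      rw [integral_const_mul]
    have n0 : ∫ ξ, ‖F ξ‖ ^ 2 = ‖((∫ ξ, ‖F ξ‖ ^ 2 : ℝ) : ℂ)‖ := by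
      rw [Complex.norm_real, Real.norm_of_nonneg (integral_nonneg fun _ => by positivity)]
    rw [n0, e]
    calc _ ≤ ∑ i ∈ s, ∑ j ∈ s, (om i * ‖v i‖ * (om j * ‖v j‖)) * kap w (t i - t j) := by
          refine (norm_sum_le _ _).trans (Finset.sum_le_sum fun i hi => (norm_sum_le _ _).trans
            (Finset.sum_le_sum fun j hj => ?_))
          rw [norm_mul, norm_mul, norm_mul, norm_mul, RCLike.norm_conj, Complex.norm_real,
            Complex.norm_real, Real.norm_of_nonneg (hom i hi), Real.norm_of_nonneg (hom j hj)]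
          have := hom i hi
          have := hom j hj
          exact mul_le_mul_of_nonneg_left (norm_int_ph_le hw _ _ _ _) (by positivity)
      _ ≤ ∑ i ∈ s, ∑ j ∈ s, (1 / 2 * (om i * ‖v i‖ ^ 2 * (om j * kap w (t i - t j))) +
            1 / 2 * (om j * ‖v j‖ ^ 2 * (om i * kap w (t j - t i)))) := by
          refine Finset.sum_le_sum fun i hi => Finset.sum_le_sum fun j hj => ?_
          have h1 := hom i hi
          have h2 := hom j hj
          have h3 : kap w (t j - t i) = kap w (t i - t j) := by rw [← kap_neg, neg_sub]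
          have h4 := kap_nonneg w (t i - t j)
          rw [h3]
          nlinarith [mul_nonneg (mul_nonneg (mul_nonneg h1 h2) h4) (sq_nonneg (‖v i‖ - ‖v j‖))]
      _ = ∑ i ∈ s, om i * ‖v i‖ ^ 2 * ∑ j ∈ s, om j * kap w (t i - t j) := by
          simp_rw [Finset.sum_add_distrib]
          rw [Finset.sum_comm (f := fun i j => 1 / 2 * (om j * ‖v j‖ ^ 2 * (om i * kap w (t j - t i))))]
          rw [← Finset.sum_add_distrib]
          refine Finset.sum_congr rfl fun i _ => ?_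
          rw [← Finset.sum_add_distrib, Finset.mul_sum]
          refine Finset.sum_congr rfl fun j _ => ?_
          ring
      _ ≤ ∑ i ∈ s, om i * ‖v i‖ ^ 2 * S := by
          refine Finset.sum_le_sum fun i hi => ?_
          have := hom i hi
          exact mul_le_mul_of_nonneg_left (hS i hi) (by positivity)
      _ = S * A := by rw [← Finset.sum_mul, mul_comm]
  -- duality
  have hdual : (A : ℂ) = ∫ ξ, unG w C ξ * F ξ := by
    have hvi : ∀ i, v i = ∫ ξ, unG w C ξ * ph w (y i) (t i) ξ := fun i => by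
      rw [hv]; simp only [unG_mul_ph]; rfl
    have hii : ∀ i, Integrable (fun ξ => unG w C ξ * ph w (y i) (t i) ξ) := fun i => by
      simp only [unG_mul_ph]
      refine hC.1.mono (hC.1.aestronglyMeasurable.mul ?_) (Filter.Eventually.of_forall fun ξ => ?_)
      · exact (continuous_ex.comp (by fun_prop)).aestronglyMeasurable
      · rw [norm_mul, norm_ex, mul_one]
    have e1 : ∀ ξ, unG w C ξ * F ξ = ∑ i ∈ s, ((om i : ℂ) * (starRingEnd ℂ) (v i)) *
        (unG w C ξ * ph w (y i) (t i) ξ) := fun ξ => by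
      rw [hF, Finset.mul_sum]
      exact Finset.sum_congr rfl fun i _ => by ring
    simp_rw [e1]
    rw [integral_finset_sum _ fun i _ => (hii i).const_mul _, hA]
    push_cast
    refine Finset.sum_congr rfl fun i _ => ?_
    rw [integral_const_mul, ← hvi, mul_assoc, mul_comm ((starRingEnd ℂ) (v i)) (v i), Complex.mul_conj,
      Complex.normSq_eq_norm_sq]
    push_cast
    ring
  have hA0 : 0 ≤ A := Finset.sum_nonneg fun i hi => by
    have := hom i hi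
    positivity
  have hle : A ≤ 1 / 2 * (S * ∫ ξ, ‖unG w C ξ‖ ^ 2) + 1 / 2 * A := by
    have h1 : A = ‖(A : ℂ)‖ := by rw [Complex.norm_real, Real.norm_of_nonneg hA0]
    rw [h1, hdual]
    have h2 : ∀ ξ, ‖unG w C ξ * F ξ‖ ≤ S / 2 * ‖unG w C ξ‖ ^ 2 + 1 / (2 * S) * ‖F ξ‖ ^ 2 := fun ξ => by
      rw [norm_mul]
      have : 0 ≤ (S * ‖unG w C ξ‖ - ‖F ξ‖) ^ 2 / (2 * S) := by positivity
      have e : (S * ‖unG w C ξ‖ - ‖F ξ‖) ^ 2 / (2 * S) = S / 2 * ‖unG w C ξ‖ ^ 2 +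
        1 / (2 * S) * ‖F ξ‖ ^ 2 - ‖unG w C ξ‖ * ‖F ξ‖ := by
        field_simp
        ring
      linarith
    calc ‖∫ ξ, unG w C ξ * F ξ‖ ≤ ∫ ξ, ‖unG w C ξ * F ξ‖ := norm_integral_le_integral_norm _
      _ ≤ ∫ ξ, (S / 2 * ‖unG w C ξ‖ ^ 2 + 1 / (2 * S) * ‖F ξ‖ ^ 2) :=
          integral_mono_of_nonneg (Filter.Eventually.of_forall fun _ => norm_nonneg _)
            ((hG2.const_mul _).add (hFi.const_mul _)) (Filter.Eventually.of_forall h2)
      _ = S / 2 * (∫ ξ, ‖unG w C ξ‖ ^ 2) + 1 / (2 * S) * ∫ ξ, ‖F ξ‖ ^ 2 := by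
          rw [integral_add (hG2.const_mul _) (hFi.const_mul _), integral_const_mul, integral_const_mul]
      _ ≤ S / 2 * (∫ ξ, ‖unG w C ξ‖ ^ 2) + 1 / (2 * S) * (S * A) := by gcongr
      _ = 1 / 2 * (S * ∫ ξ, ‖unG w C ξ‖ ^ 2) + 1 / 2 * A := by field_simp
      _ = 1 / 2 * (S * ∫ ξ, ‖unG w C ξ‖ ^ 2) + 1 / 2 * ‖∫ ξ, unG w C ξ * F ξ‖ := by rw [← hdual, ← h1]
  have : A ≤ S * ∫ ξ, ‖unG w C ξ‖ ^ 2 := by linarith
  calc A ≤ S * ∫ ξ, ‖unG w C ξ‖ ^ 2 := this
    _ ≤ S * (Real.exp (2 * Real.pi) * ms C) := by gcongr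
    _ = _ := by ring

end Vale.Agent.P076.H381
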